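import Vale.Agent.P221X.TD.TwrSt
import Vale.Agent.P221X.RIG.Spec2
import Vale.Agent.P093.N0.MU

/-!
# P221X, row FIN: the statements which the final assembly uses

* `EDOut p b V` : the output of the blocks GD, Meas, GR, TOP-C;
* `RowSTD S p` : the quotient `C = BP / (v_3, v_4, …)` exists;
* `RowTOPC S p` : `EDOut` for `b = C ⊗ M`, `V = V(2)`;
* `RowTOPC' S p` : the same, with `M` and `V` chosen by the block.
-/

open CategoryTheory MonoidalCategory Limits Pretriangulated

noncomputable section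

namespace Vale.Agent.P221X.Fin

open Vale.Agent.P251 Vale.Agent.P251.T Vale.Agent.P251.S Vale.Agent.P251.I Vale.Agent.P251.St
  Vale.Agent.P251.St.SHCat Vale.Agent.P257.St Vale.Agent.P257.H702 Vale.Agent.P221

universe u

/-- The group, the rings and the topological data exist. -/
def EDOut {T : Type u} [Category.{0} T] [Preadditive T] [HasZeroObject T] [HasShift T ℤ]
    [∀ n : ℤ, (shiftFunctor T n).Additive] [Pretriangulated T] [IsTriangulated T]
    [MonoidalCategory T] [SymmetricCategory T] [TensorTriangulated T] [MonoidalClosed T]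
    [HasCoproducts.{0} T] [HasProducts.{0} T] [StableCat T] (p : ℕ) [Fact p.Prime]
    (b V : T) : Prop :=
  ∃ (F : Type) (_ : Field F) (_ : CharP F p) (_ : Finite F) (D : GD p F) (R : Type) (_ : Ring R)
    (_ : Algebra F R) (S : RD D R) (Rf AA : Type) (_ : Ring Rf) (_ : Ring AA) (A₀ : RA S Rf AA),
    p < Nat.card F ∧ Nonempty (RIG.GDX D) ∧ Nonempty (ED A₀ (2 * p - 2) b V)

variable {T : SHCat}

/-- Row STD: the quotient of `BP` by `v_3, v_4, …` exists as a homotopy module. -/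
def RowSTD (S : Susp T) (p : ℕ) : Prop :=
  ∀ (P : RingSp T) (o : Oriented S P) (φ : GHom S p P), IsBrownPeterson p o φ →
    ∃ (C : T.C) (a : Hom (ten P.obj C) C) (q : Hom P.obj C), StI.IsQuotient 2 (hazV φ) a q

/-- Row TOP-C. -/
def RowTOPC (S : Susp T) (p : ℕ) [Fact p.Prime] : Prop :=
  ∀ (D : MUData T.C) (_ : MUUniv (M.lineIso S.toSpaceFunctor) D) (_ : P093.N0.MUAll D)
    (_ : MUFam (M.lineIso S.toSpaceFunctor) D) (W : TD.Twr D p)
    (P : RingSp T) (o : Oriented S P) (φ : GHom S p P) (C : T.C) (a : Hom (ten P.obj C) C)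
    (q : Hom P.obj C), IsBrownPeterson p o φ → StI.IsQuotient 2 (hazV φ) a q →
      EDOut p (C ⊗ W.M) W.V2

/-- Row TOP-C, weak form: the block chooses the Moore spectrum and the complex of type three. -/
def RowTOPC' (S : Susp T) (p : ℕ) [Fact p.Prime] : Prop :=
  ∀ (P : RingSp T) (o : Oriented S P) (φ : GHom S p P) (C : T.C) (a : Hom (ten P.obj C) C)
    (q : Hom P.obj C), IsBrownPeterson p o φ → StI.IsQuotient 2 (hazV φ) a q →
      ∃ (M V : T.C) (i : 𝟙_ T.C ⟶ M) (δ : M ⟶ (𝟙_ T.C)⟦(1 : ℤ)⟧),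
        (Triangle.mk ((p : ℤ) • 𝟙 (𝟙_ T.C)) i δ ∈ distTriang T.C) ∧ StI.IsGenMoore φ 3 V ∧
          IsFin V ∧ EDOut p (C ⊗ M) V

end Vale.Agent.P221X.Fin
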