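import Vale.Agent.P221X.TC.All
import Vale.Agent.P221X.EXI.Close

/-!
# P221X: the unconditional theorem
-/

namespace Vale.Agent.P221X.Fin

open Vale.Agent.P251.St Vale.Agent.P221

theorem full {T : SHCat} {S : Susp T} {p : ℕ} (hp : p.Prime) (h5 : 5 ≤ p) :
    (∃ B : T.C, StI.IsStandardForm S p 2 B) ∧ ∃ X : T.C, StI.IsFpType S p 2 X ∧
      ∀ B : T.C, StI.IsStandardForm S p 2 B → ¬ StI.ThickOf (fun Y => Y = B) X :=
  haveI : Fact p.Prime := ⟨hp⟩
  TC.final_of_std h5 (EXI.Close.rowSTD S h5)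

end Vale.Agent.P221X.Fin
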