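import Vale.Agent.P221X.TC.All

/-!
# P221X: the final theorem for a given quotient of `BP`
-/

open CategoryTheory MonoidalCategory Limits Pretriangulated

noncomputable section

namespace Vale.Agent.P221X.Fin

open Vale.Agent.P251 Vale.Agent.P251.St Vale.Agent.P251.St.SHCat Vale.Agent.P257.St
  Vale.Agent.P221

variable {T : SHCat} {S : Susp T} {p : ℕ}

theorem main_of (hp : p.Prime) (h5 : 5 ≤ p) {P : RingSp T} {o : Oriented S P} {φ : GHom S p P}
    {C : T.C} {a : Hom (ten P.obj C) C} {q : Hom P.obj C} (hP : IsBrownPeterson p o φ)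
    (hq : StI.IsQuotient 2 (hazV φ) a q) : (∃ B : T.C, StI.IsStandardForm S p 2 B) ∧
      ∃ X : T.C, StI.IsFpType S p 2 X ∧
        ∀ B : T.C, StI.IsStandardForm S p 2 B → ¬ StI.ThickOf (fun Y => Y = B) X := by
  have : Fact p.Prime := ⟨hp⟩
  obtain ⟨M, V, i, δ, hM, hV, hfin, F, _, _, _, D, R, _, _, Sr, Rf, AA, _, _, A₀, hF, hX, ⟨E⟩⟩ :=
    rowTOPC'_of h5 (TC.rowTOPC h5) P o φ C a q hP hq
  obtain ⟨A⟩ := RIG.algAll Sr h5 hX
  obtain ⟨X, hO⟩ := rowTOPB p F D R Sr Rf AA A₀ _ V h5 hF (hasCov T S) hfin A E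
  obtain ⟨B₀, c, hB₀, hc⟩ := exists_std hp hP hq hM
  refine ⟨⟨B₀, hB₀⟩, X, isFpType_of_out hP hV hO, fun B h1 h2 => hO.not_thick ?_⟩
  obtain ⟨k, hk⟩ := hO.pow
  exact thick_of_completion hM c hk ((nm_of_thickOf h2).trans (thick_std hB₀ h1))

end Vale.Agent.P221X.Fin
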