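import Vale.Agent.P221X.Fin.Std
import Vale.Agent.P221X.RIG.Alg
import Vale.Agent.P221X.TD.Cov

/-!
# P221X, row FIN: the final theorem from the rows STD, TOP-C, TOP-B
-/

open CategoryTheory MonoidalCategory Limits Pretriangulated

set_option linter.unusedSectionVars false

noncomputable section

namespace Vale.Agent.P221X.Fin

open Vale.Agent.P251 Vale.Agent.P251.St Vale.Agent.P251.St.SHCat Vale.Agent.P257.St
  Vale.Agent.P221

variable {T : SHCat} {S : Susp T} {p : ℕ}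

/-- **The final theorem**, from the three rows. -/
theorem final_of [hp : Fact p.Prime] (h5 : 5 ≤ p) (hS : RowSTD S p) (hC : RowTOPC' S p)
    (hB : RowTOPB T.C) : (∃ B : T.C, StI.IsStandardForm S p 2 B) ∧
      ∃ X : T.C, StI.IsFpType S p 2 X ∧
        ∀ B : T.C, StI.IsStandardForm S p 2 B → ¬ StI.ThickOf (fun Y => Y = B) X := by
  obtain ⟨P, o, φ, hP⟩ := P257.H702.exists_isBrownPeterson S p
  obtain ⟨C, a, q, hq⟩ := hS P o φ hP
  obtain ⟨M, V, i, δ, hM, hV, hfin, F, _, _, _, D, R, _, _, Sr, Rf, AA, _, _, A₀, hF, hX, ⟨E⟩⟩ :=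
    hC P o φ C a q hP hq
  obtain ⟨A⟩ := RIG.algAll Sr h5 hX
  obtain ⟨X, hO⟩ := hB p F D R Sr Rf AA A₀ _ V h5 hF (hasCov T S) hfin A E
  obtain ⟨B₀, c, hB₀, hc⟩ := exists_std hp.out hP hq hM
  refine ⟨⟨B₀, hB₀⟩, X, isFpType_of_out hP hV hO, fun B h1 h2 => hO.not_thick ?_⟩
  obtain ⟨k, hk⟩ := hO.pow
  exact thick_of_completion hM c hk ((nm_of_thickOf h2).trans (thick_std hB₀ h1))

end Vale.Agent.P221X.Fin
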