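import Vale.Agent.P221X.Fin.Spec
import Vale.Agent.P221.H395.Comp2

/-!
# P221X, row FIN: from `Out` to the statement layer
-/

open CategoryTheory MonoidalCategory Limits Pretriangulated

set_option linter.unusedSectionVars false

noncomputable section

namespace Vale.Agent.P221X.Fin

open Vale.Agent.P251 Vale.Agent.P251.T Vale.Agent.P251.S Vale.Agent.P251.I Vale.Agent.P251.St
  Vale.Agent.P251.St.SHCat Vale.Agent.P257.St Vale.Agent.P257.H702 Vale.Agent.P221

universe u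

section lib

variable {T : Type u} [Category.{0} T] [Preadditive T] [HasZeroObject T] [HasShift T ℤ]
  [∀ n : ℤ, (shiftFunctor T n).Additive] [Pretriangulated T] [IsTriangulated T]
  [MonoidalCategory T] [SymmetricCategory T] [TensorTriangulated T] [MonoidalClosed T]
  [HasCoproducts.{0} T] [HasProducts.{0} T] [StableCat T] {p : ℕ}

/-- an object which is killed by a power of `p` is `p`-complete -/
theorem pComplete_of_pow {X : T} {k : ℕ} (h : ((p : ℤ) ^ k) • 𝟙 X = 0) : H395.PComplete p X := by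
  intro W hW f
  have h1 : ∀ j : ℕ, ∃ g : W ⟶ X, f = ((p : ℤ) ^ j) • g := by
    intro j
    induction j with
    | zero => exact ⟨f, by rw [pow_zero, one_smul]⟩
    | succ j ih =>
      obtain ⟨g, hg⟩ := ih
      obtain ⟨g', hg'⟩ := H395.exists_div hW g
      exact ⟨g', by rw [hg, hg', smul_smul, pow_succ]⟩
  obtain ⟨g, hg⟩ := h1 k
  rw [hg, ← Category.comp_id g, ← Preadditive.comp_zsmul, h, comp_zero]

/-- an object which is killed by a power of `p` is built from its reduction modulo `p` -/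
theorem thick_mod {M : T} {i : 𝟙_ T ⟶ M} {δ : M ⟶ (𝟙_ T)⟦(1 : ℤ)⟧}
    (hM : Triangle.mk ((p : ℤ) • 𝟙 (𝟙_ T)) i δ ∈ distTriang T) {X : T} {k : ℕ}
    (h : ((p : ℤ) ^ k) • 𝟙 X = 0) : NM.Thick (X ⊗ M) X := by
  refine NM.thick_of_nilpotent (f := ((p : ℤ) • 𝟙 X : End X)) (n := k)
    (redTri_distinguished hM X) ?_
  have h1 : ((p : ℤ) • 𝟙 X : End X) = (p : ℤ) • (1 : End X) := rfl
  rw [h1, smul_pow, one_pow]
  exact h

/-- if `X` is built from `B`, it is built from `C ⊗ M` -/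
theorem thick_of_completion {M : T} {i : 𝟙_ T ⟶ M} {δ : M ⟶ (𝟙_ T)⟦(1 : ℤ)⟧}
    (hM : Triangle.mk ((p : ℤ) • 𝟙 (𝟙_ T)) i δ ∈ distTriang T) {C B X : T} (c : C ⟶ B)
    [IsIso (c ▷ M)] {k : ℕ} (h : ((p : ℤ) ^ k) • 𝟙 X = 0) (hX : NM.Thick B X) :
    NM.Thick (C ⊗ M) X := by
  have h1 : NM.Thick (B ⊗ M) (X ⊗ M) := hX.map (tensorRight M)
  exact ((thick_mod hM h).trans h1).trans (NM.Thick.base.iso (asIso (c ▷ M)))

end lib

variable {T : SHCat} {S : Susp T} {p : ℕ}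

theorem nm_of_thickOf {B X : T.C} (h : StI.ThickOf (fun Y => Y = B) X) : NM.Thick B X := by
  induction h with
  | base h => exact h ▸ .base
  | zero h => exact .zero h
  | susp k _ ih => exact .susp k ih
  | cof hd _ _ h1 h2 => exact .cof hd h1 h2
  | retract i r hir _ ih => exact .retract i r hir ih

/-- Hazewinkel's generators are polynomial generators -/
theorem isPolyGen_hazV (hp : p.Prime) {R : RingSp T} (φ : GHom S p R) {j : ℕ} (hj : 0 < j) :
    StI.IsPolyGen φ j (hazV φ j) := by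
  have h1 : ¬ (p : ℤ) ∣ 1 := fun h => hp.one_lt.ne' (Nat.dvd_one.1 (by exact_mod_cast h))
  refine ⟨1, ⟨vEl p j, vEl_mem p j⟩, h1, ?_, one_smul _ _⟩
  obtain ⟨l, rfl⟩ : ∃ l, j = l + 1 := ⟨j - 1, by omega⟩
  change ¬ (p : ℤ) ∣ MvPolynomial.coeff (Finsupp.single (l + 1 - 1) 1) (MvPolynomial.X l)
  rw [Nat.add_sub_cancel, MvPolynomial.coeff_X, if_pos rfl]
  exact h1

/-- the completion of the quotient by Hazewinkel's generators is a standard form -/
theorem exists_std (hp : p.Prime) {n : ℕ} {P : RingSp T} {o : Oriented S P} {φ : GHom S p P}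
    (hP : IsBrownPeterson p o φ) {C : T.C} {a : Hom (ten P.obj C) C} {q : Hom P.obj C}
    (hq : StI.IsQuotient n (hazV φ) a q) {M : T.C} {i : 𝟙_ T.C ⟶ M}
    {δ : M ⟶ (𝟙_ T.C)⟦(1 : ℤ)⟧}
    (hM : Triangle.mk ((p : ℤ) • 𝟙 (𝟙_ T.C)) i δ ∈ distTriang T.C) :
    ∃ (B : T.C) (c : C ⟶ B), StI.IsStandardForm S p n B ∧ IsIso (c ▷ M) := by
  obtain ⟨B, c, hB, hc⟩ := H395.exists_completion hM C
  refine ⟨B, c, ⟨P, o, φ, hazV φ, C, a, q, c, hP,
    fun j hj => isPolyGen_hazV hp φ (by omega), hq, hB, fun Z hZ f => ?_⟩, hc⟩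
  exact (Function.bijective_iff_existsUnique _).1 (H395.bij_of_isIso_mod hM c hc hZ) f

/-- `Out` gives an fp-spectrum -/
theorem isFpType_of_out {n : ℕ} {P : RingSp T} {o : Oriented S P} {φ : GHom S p P}
    (hP : IsBrownPeterson p o φ) {b V X : T.C} (hV : StI.IsGenMoore φ (n + 1) V)
    (h : Out p b V X) : StI.IsFpType S p n X := by
  obtain ⟨k, hk⟩ := h.pow
  obtain ⟨N, hN⟩ := h.bdd
  exact ⟨pComplete_of_pow hk, ⟨0, h.conn⟩, P, o, φ, V, N, hP, hV,
    fun k => ⟨h.fin k, hN k⟩⟩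

end Vale.Agent.P221X.Fin
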