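import Vale.Agent.P221X.Fin.Out
import Vale.Agent.P221.H509.HW
import Vale.Agent.P221.H174.NonVac
import Vale.Agent.P221.H924.Std
import Vale.Agent.P221.H924.Ex
import Vale.Agent.P221.H658.E0

/-!
# P221X, row FIN: all standard forms generate the same thick subcategory
-/

open CategoryTheory MonoidalCategory Limits Pretriangulated

set_option linter.unusedSectionVars false

noncomputable section

namespace Vale.Agent.P221X.Fin

open Vale.Agent.P251 Vale.Agent.P251.St Vale.Agent.P251.St.SHCat Vale.Agent.P257.St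
  Vale.Agent.P221

variable {T : SHCat} {S : Susp T} {p n : ℕ}

theorem nm_of_thick {B X : T.C} (h : P221.St.Thick B X) : NM.Thick B X := by
  induction h with
  | base => exact .base
  | zero h => exact .zero h
  | susp k _ ih => exact .susp k ih
  | cof hd _ _ h1 h2 => exact .cof hd h1 h2
  | retract i r hir _ ih => exact .retract i r hir ih

theorem isForm_of_std [Fact p.Prime] {B : T.C} (h : StI.IsStandardForm S p n B) :
    P221.St.IsForm S p n B := by
  obtain ⟨D, hD, hA, ⟨U⟩⟩ := H924.exists_mu S.toSpaceFunctor (M.lineIso S.toSpaceFunctor)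
  obtain ⟨P, o, φ, x, C, a, q, c, h1, h2, h3, h4⟩ := h
  exact H924.isForm_of_isStandardForm hD hA U (H658.isStandardForm_of
    ⟨P, o, φ, x, C, a, q, c, h1, h2, ⟨h3.act, h3.map, h3.surj, h3.ker⟩, h4⟩)

/-- every standard form is built from every other one -/
theorem thick_std [Fact p.Prime] {B B' : T.C} (h : StI.IsStandardForm S p n B)
    (h' : StI.IsStandardForm S p n B') : NM.Thick B B' :=
  nm_of_thick (H509.thick_of_isBPFinite (isForm_of_std h)
    (H174.isBPFinite_of_isForm (isForm_of_std h')))

theorem rowTOPC'_of [Fact p.Prime] (h5 : 5 ≤ p) (h : RowTOPC S p) : RowTOPC' S p := by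
  intro P o φ C a q hP hq
  obtain ⟨D, hD, hA, ⟨U⟩⟩ := H924.exists_mu S.toSpaceFunctor (M.lineIso S.toSpaceFunctor)
  obtain ⟨W⟩ := TD.exists_twr D h5
  exact ⟨W.M, W.V2, W.iM, W.δM, W.distM, (W.genMooreI U hP.typ).2.2, W.fin2,
    h D hD hA U W P o φ C a q hP hq⟩

end Vale.Agent.P221X.Fin
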